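import Vale.Agent.P235.K5.H437.Fin
import Vale.Agent.P235.Comp.Defs

/-!
P235, line XC (helper531 #18916), row [X3] (helper437): graphs without a fixed minor `M` are spanning
subgraphs of sums, over cliques with at most three vertices, of pieces without `K_5` and `K_{3,3}`
minor and pieces of bounded treewidth.  Inputs: the internally 4-connected case (`CorHyp`) and [X2].
-/

set_option autoImplicit false
set_option linter.all false

namespace Vale.Agent.P235.K5.H437.XC

open SimpleGraph Vale.Agent.P235.H134 Vale.Agent.P235.H56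
open Vale.Agent.P235.H341W (capG)

variable {V : Type}

/-- outer neighbours -/
def nbr (G : SimpleGraph V) (D : Set V) : Set V := {v | v ∉ D ∧ ∃ u ∈ D, G.Adj u v}

/-- no 3-separation with two vertices on both sides -/
def Q4 (G : SimpleGraph V) : Prop :=
  ∀ D : Set V, (nbr G D).ncard ≤ 3 → D.ncard ≤ 1 ∨ ((D ∪ nbr G D)ᶜ).ncard ≤ 1

/-- the core: internally 4-connected graphs without the minor `M` -/
def CorHyp {U : Type} (M : SimpleGraph U) (w : ℕ) : Prop :=
  ∀ (V : Type) [Finite V] (G : SimpleGraph V), Conn3 G → Q4 G → ¬ IsMinor M G →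
    (¬ IsMinor K5 G ∧ ¬ IsMinor K33 G) ∨ TreewidthLE G w

/-- [X2] -/
def X2Stmt : Prop :=
  ∀ (V : Type) [Finite V] (G : SimpleGraph V) (D K : Set V), Conn3 G → K.ncard ≤ 3 →
    (∀ v ∈ D, v ∉ K) → (∀ u ∈ D, ∀ v, G.Adj u v → v ∈ D ∨ v ∈ K) → 2 ≤ D.ncard →
    (∃ y, y ∉ D ∧ y ∉ K) → IsMinor ((G ⊔ cl K).induce Dᶜ) G

/-- the pieces -/
def AtomM (w : ℕ) (W : Type) (G : SimpleGraph W) : Prop :=
  Nonempty W ∧ (∀ K : Set W, K.ncard ≤ 3 → Clq G K → (G.induce Kᶜ).Preconnected) ∧
    ((¬ IsMinor K5 G ∧ ¬ IsMinor K33 G) ∨ TreewidthLE G w)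

/-- the recursion, down to the 3-connected case -/
theorem goodG [Finite V] {U : Type} (M : SimpleGraph U) (A : ∀ W : Type, SimpleGraph W → Prop)
    (hstep : ∀ X : Set V, X.Nonempty → ∀ G : SimpleGraph V, ¬ IsMinor M (G.induce X) →
      Conn3 (G.induce X) →
      (∀ K : Set X, K.ncard ≤ 3 → Clq (G.induce X) K →
        ((G.induce X).induce Kᶜ).Preconnected) →
      (∀ Y : Set V, Y ⊆ X → (∃ y ∈ X, y ∉ Y) → Y.Nonempty → ∀ G' : SimpleGraph V,
        ¬ IsMinor M (G'.induce Y) → ∀ R ⊆ Y, Clq G' R → Good A G' Y R) →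
      ∀ R ⊆ X, Clq G R → Good A G X R) :
    ∀ (n : ℕ) (X : Set V), X.ncard ≤ n → X.Nonempty →
    ∀ G : SimpleGraph V, ¬ IsMinor M (G.induce X) → ∀ R ⊆ X, Clq G R → Good A G X R := by
  intro n
  induction n with
  | zero =>
    intro X hX hne
    have : X = ∅ := (Set.ncard_eq_zero (Set.toFinite X)).1 (Nat.le_zero.1 hX)
    rw [this] at hne
    exact absurd hne Set.not_nonempty_empty
  | succ n ih =>
    intro X hX hXne G hG R hRX hR
    have small : ∀ Y : Set V, Y ⊆ X → (∃ y ∈ X, y ∉ Y) → Y.ncard ≤ n := by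
      intro Y hY ⟨y, hy, hyY⟩
      have h1 : Y.ncard < X.ncard :=
        Set.ncard_lt_ncard ⟨hY, fun h => hyY (h hy)⟩ (Set.toFinite X)
      omega
    by_cases hsep : ∃ K C : Set V, K ⊆ X ∧ C ⊆ X ∧ C.Nonempty ∧ (∀ v ∈ C, v ∉ K) ∧
        K.ncard ≤ 3 ∧ Clq G K ∧ (∀ u ∈ C, ∀ v ∈ X, G.Adj u v → v ∈ C ∨ v ∈ K) ∧
        ∃ y ∈ X, y ∉ C ∧ y ∉ K
    · obtain ⟨K, C, hKX, hCX, hCne, hCK, hK3, hKc, hcl, y, hy, hyC, hyK⟩ := hsep
      refine Good.split hCX hKX hCK hK3 hcl hRX hR ?_ ?_
      · rw [sup_cl hKc]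
        intro R' hR' hRc'
        have hsub : C ∪ K ⊆ X := Set.union_subset hCX hKX
        exact ih _ (small _ hsub ⟨y, hy, fun h => h.elim hyC hyK⟩)
          (hCne.mono Set.subset_union_left) G (fun h => hG (minor_sub hsub h)) R' hR' hRc'
      · rw [sup_cl hKc]
        intro R' hR' hRc'
        have hsub : X \ C ⊆ X := Set.diff_subset
        obtain ⟨c, hc⟩ := hCne
        exact ih _ (small _ hsub ⟨c, hCX hc, fun h => h.2 hc⟩)
          ⟨y, hy, hyC⟩ G (fun h => hG (minor_sub hsub h)) R' hR' hRc'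
    have nosep : ∀ K C : Set V, K ⊆ X → C ⊆ X → C.Nonempty → (∀ v ∈ C, v ∉ K) →
        K.ncard ≤ 3 → Clq G K → (∀ u ∈ C, ∀ v ∈ X, G.Adj u v → v ∈ C ∨ v ∈ K) →
        ∀ y ∈ X, y ∉ C → y ∉ K → False := by
      intro K C h1 h2 h3 h4 h5 h6 h7 y hy hyC hyK
      exact hsep ⟨K, C, h1, h2, h3, h4, h5, h6, h7, y, hy, hyC, hyK⟩
    by_cases h2 : ∃ s ∈ X, ∃ t ∈ X, ∃ C ⊆ X, C.Nonempty ∧ s ∉ C ∧ t ∉ C ∧
        (∀ u ∈ C, ∀ v ∈ X, G.Adj u v → v ∈ C ∨ v = s ∨ v = t) ∧ ∃ y ∈ X, y ∉ C ∧ y ≠ s ∧ y ≠ t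
    · obtain ⟨s, hs, t, ht, C, hCX, ⟨c, hc⟩, hsC, htC, hcl, y, hy, hyC, hys, hyt⟩ := h2
      -- `s ≠ t`, not adjacent
      have hK2 : ({s, t} : Set V).ncard ≤ 3 := by
        have := Set.ncard_insert_le s {t}
        rw [Set.ncard_singleton] at this
        omega
      have hKX : ({s, t} : Set V) ⊆ X := by
        rintro x (rfl | rfl)
        · exact hs
        · exact ht
      have hnst : ¬ (s = t ∨ G.Adj s t) := by
        intro hst
        refine nosep {s, t} C hKX hCX ⟨c, hc⟩ ?_ hK2 ?_ ?_ y hy hyC ?_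
        · rintro v hv (rfl | rfl)
          · exact hsC hv
          · exact htC hv
        · rintro u (rfl | rfl) v (rfl | rfl) huv
          · exact absurd rfl huv
          · exact hst.resolve_left huv
          · exact (hst.resolve_left (Ne.symm huv)).symm
          · exact absurd rfl huv
        · intro u hu v hv huv
          rcases hcl u hu v hv huv with h | h | h
          · exact Or.inl h
          · exact Or.inr (Or.inl h)
          · exact Or.inr (Or.inr h)
        · rintro (h | h)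
          · exact hys h
          · exact hyt h
      have hst : s ≠ t := fun h => hnst (Or.inl h)
      set Y : Set V := X \ {s, t} with hY
      have memY : ∀ v, v ∈ X → v ≠ s → v ≠ t → v ∈ Y := by
        intro v hv h1 h2
        exact ⟨hv, fun h => h.elim h1 h2⟩
      have hcs : c ≠ s := fun h => hsC (h ▸ hc)
      have hct : c ≠ t := fun h => htC (h ▸ hc)
      have hcY : c ∈ Y := memY c (hCX hc) hcs hct
      have hyY : y ∈ Y := memY y hy hys hyt
      have adjE : ∀ e ∈ Y, ∀ s' t' : V, s' ≠ t' → s' ∈ X → t' ∈ X →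
          (∀ v ∈ X, v ≠ s' → v ≠ t' → v ∈ Y) → (∀ v ∈ Y, v ≠ s' ∧ v ≠ t') →
          ∃ a ∈ comp G Y e, G.Adj a s' := by
        intro e he s' t' hst' hs' ht' hmem hmem'
        by_contra hno
        push Not at hno
        have hEY : comp G Y e ⊆ Y := comp_sub he
        refine nosep {t'} (comp G Y e) (by rintro x rfl; exact ht')
          (fun v hv => (hEY hv).1) ⟨e, comp_self⟩ ?_ (by rw [Set.ncard_singleton]; omega) ?_ ?_
          s' hs' ?_ ?_
        · rintro v hv rfl
          exact (hmem' v (hEY hv)).2 rfl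
        · rintro u rfl v rfl huv
          exact absurd rfl huv
        · intro u hu v hv huv
          by_cases h1 : v = t'
          · exact Or.inr h1
          · have h2 : v ≠ s' := by
              rintro rfl
              exact hno u hu huv
            exact Or.inl (comp_step hu huv (hmem v hv h2 h1))
        · intro h
          exact (hmem' s' (hEY h)).1 rfl
        · exact hst'
      have adjs : ∀ e ∈ Y, ∃ a ∈ comp G Y e, G.Adj a s := fun e he =>
        adjE e he s t hst hs ht memY (fun v hv => ⟨fun h => hv.2 (Or.inl h),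
          fun h => hv.2 (Or.inr h)⟩)
      have adjt : ∀ e ∈ Y, ∃ a ∈ comp G Y e, G.Adj a t := fun e he =>
        adjE e he t s hst.symm ht hs (fun v hv h1 h2 => memY v hv h2 h1)
          (fun v hv => ⟨fun h => hv.2 (Or.inr h), fun h => hv.2 (Or.inl h)⟩)
      set C' := comp G Y c with hC'
      set D' := comp G Y y with hD'
      have hC'Y : C' ⊆ Y := comp_sub hcY
      have hD'Y : D' ⊆ Y := comp_sub hyY
      have hC'C : C' ⊆ C := by
        refine comp_le hc ?_
        intro u hu v hv huv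
        rcases hcl u hu v hv.1 huv with h | h | h
        · exact h
        · exact absurd (Or.inl h) hv.2
        · exact absurd (Or.inr h) hv.2
      have hD'C : D' ⊆ Y \ C := by
        refine comp_le ⟨hyY, hyC⟩ ?_
        intro u hu v hv huv
        refine ⟨hv, fun hvC => ?_⟩
        rcases hcl v hvC u hu.1.1 huv.symm with h | h | h
        · exact hu.2 h
        · exact hu.1.2 (Or.inl h)
        · exact hu.1.2 (Or.inr h)
      refine Good.split (C := C') (K := {s, t}) (fun v hv => (hC'Y hv).1) hKX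
        (fun v hv => (hC'Y hv).2) hK2 ?_ hRX hR ?_ ?_
      · intro u hu v hv huv
        by_cases h : v ∈ ({s, t} : Set V)
        · exact Or.inr h
        · exact Or.inl (comp_step hu huv ⟨hv, h⟩)
      · intro R' hR' hRc'
        have hsub : C' ∪ {s, t} ⊆ X := Set.union_subset (fun v hv => (hC'Y hv).1) hKX
        refine ih _ (small _ hsub ⟨y, hy, ?_⟩) ⟨c, Or.inl comp_self⟩ _ ?_ R' hR' hRc'
        · rintro (h | h)
          · exact hyC (hC'C h)
          · exact hyY.2 h
        · refine k_gen (N1 := insert s D') (N2 := {t}) hsub hst ?_ ?_ (Or.inl rfl) rfl ?_ ?_ ?_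
            (con_insert comp_conn (adjs y hyY)) (conn_single G t) ?_ ?_ ?_ ?_ hG
          · rintro x (rfl | hx)
            · exact hs
            · exact (hD'Y hx).1
          · rintro x rfl
            exact ht
          · rintro v (rfl | hv) hvZ
            · rfl
            · exfalso
              rcases hvZ with h | h
              · exact (hD'C hv).2 (hC'C h)
              · exact (hD'Y hv).2 h
          · intro v hv _
            exact hv
          · rw [Set.disjoint_left]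
            rintro x (rfl | hx) hx'
            · exact hst hx'
            · exact (hD'Y hx).2 (Or.inr hx')
          · rintro v (rfl | rfl) h1 h2
            · exact absurd rfl h1
            · exact absurd rfl h2
          · rintro v (rfl | rfl) h1 h2
            · exact absurd rfl h1
            · exact absurd rfl h2
          · obtain ⟨a, ha, hat⟩ := adjt y hyY
            exact ⟨a, Or.inr ha, t, rfl, hat⟩
          · rintro u (rfl | rfl) v _ _
            · exact Or.inl rfl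
            · exact Or.inr (Or.inl rfl)
      · intro R' hR' hRc'
        have hsub : X \ C' ⊆ X := Set.diff_subset
        refine ih _ (small _ hsub ⟨c, hcY.1, fun h => h.2 comp_self⟩)
          ⟨y, hy, fun h => hyC (hC'C h)⟩ _ ?_ R' hR' hRc'
        refine k_gen (N1 := insert s C') (N2 := {t}) hsub hst ?_ ?_ (Or.inl rfl) rfl ?_ ?_ ?_
          (con_insert comp_conn (adjs c hcY)) (conn_single G t) ?_ ?_ ?_ ?_ hG
        · rintro x (rfl | hx)
          · exact hs
          · exact (hC'Y hx).1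
        · rintro x rfl
          exact ht
        · rintro v (rfl | hv) hvZ
          · rfl
          · exact absurd hv hvZ.2
        · intro v hv _
          exact hv
        · rw [Set.disjoint_left]
          rintro x (rfl | hx) hx'
          · exact hst hx'
          · exact (hC'Y hx).2 (Or.inr hx')
        · rintro v (rfl | rfl) h1 h2
          · exact absurd rfl h1
          · exact absurd rfl h2
        · rintro v (rfl | rfl) h1 h2
          · exact absurd rfl h1
          · exact absurd rfl h2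
        · obtain ⟨a, ha, hat⟩ := adjt c hcY
          exact ⟨a, Or.inr ha, t, rfl, hat⟩
        · rintro u (rfl | rfl) v _ _
          · exact Or.inl rfl
          · exact Or.inr (Or.inl rfl)
    -- now `G[X]` is 3-connected
    have hc3 : ∀ s ∈ X, ∀ t ∈ X, ∀ C ⊆ X, C.Nonempty → s ∉ C → t ∉ C →
        (∀ u ∈ C, ∀ v ∈ X, G.Adj u v → v ∈ C ∨ v = s ∨ v = t) →
        ∀ y ∈ X, y ∉ C → y ≠ s → y ≠ t → False := by
      intro s hs t ht C hC h3 h4 h5 h6 y hy h7 h8 h9
      exact h2 ⟨s, hs, t, ht, C, hC, h3, h4, h5, h6, y, hy, h7, h8, h9⟩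
    have hconn3 : Conn3 (G.induce X) := by
      intro s t C hne hsC htC hcl y
      by_contra hy
      push Not at hy
      refine hc3 s.1 s.2 t.1 t.2 (Subtype.val '' C) ?_ (hne.image _) ?_ ?_ ?_ y.1 y.2 ?_
        (fun h => hy.2.1 (Subtype.ext h)) (fun h => hy.2.2 (Subtype.ext h))
      · rintro _ ⟨x, _, rfl⟩
        exact x.2
      · rintro ⟨x, hx, hxs⟩
        exact hsC (Subtype.ext hxs ▸ hx)
      · rintro ⟨x, hx, hxs⟩
        exact htC (Subtype.ext hxs ▸ hx)
      · rintro _ ⟨x, hx, rfl⟩ v hv hxv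
        rcases hcl x hx ⟨v, hv⟩ hxv with h | h | h
        · exact Or.inl ⟨_, h, rfl⟩
        · exact Or.inr (Or.inl (congrArg Subtype.val h))
        · exact Or.inr (Or.inr (congrArg Subtype.val h))
      · rintro ⟨x, hx, hxs⟩
        exact hy.1 (Subtype.ext hxs ▸ hx)
    have hpre : ∀ K : Set X, K.ncard ≤ 3 → Clq (G.induce X) K →
        ((G.induce X).induce Kᶜ).Preconnected := by
      intro K hK hKc a b
      have haY : a.1.1 ∈ X \ (Subtype.val '' K) := ⟨a.1.2, by
        rintro ⟨x, hx, hxa⟩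
        exact a.2 (Subtype.ext hxa ▸ hx)⟩
      have hbK : b.1.1 ∉ (Subtype.val '' K : Set V) := by
        rintro ⟨x, hx, hxa⟩
        exact b.2 (Subtype.ext hxa ▸ hx)
      have hsub := comp_sub (G := G) haY
      have hb : b.1.1 ∈ comp G (X \ (Subtype.val '' K)) a.1.1 := by
        by_contra hb
        refine nosep (Subtype.val '' K) (comp G (X \ (Subtype.val '' K)) a.1.1) ?_
          (fun v hv => (hsub hv).1) ⟨_, comp_self⟩ (fun v hv => (hsub hv).2) ?_ ?_ ?_ b.1.1 b.1.2
          hb hbK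
        · rintro _ ⟨x, _, rfl⟩
          exact x.2
        · exact (Set.ncard_image_le (Set.toFinite K)).trans hK
        · rintro _ ⟨x, hx, rfl⟩ _ ⟨z, hz, rfl⟩ hxz
          exact hKc x hx z hz (fun h => hxz (congrArg Subtype.val h))
        · intro u hu v hv huv
          by_cases h : v ∈ (Subtype.val '' K : Set V)
          · exact Or.inr h
          · exact Or.inl (comp_step hu huv ⟨hv, h⟩)
      let f : G.induce (comp G (X \ (Subtype.val '' K)) a.1.1) →g (G.induce X).induce Kᶜ :=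
        ⟨fun z => ⟨⟨z.1, (hsub z.2).1⟩, fun hz => (hsub z.2).2 ⟨_, hz, rfl⟩⟩, fun h => h⟩
      exact (comp_reach b.1.1 hb).map f
    exact hstep X hXne G hG hconn3 hpre
      (fun Y hY hy hYne G' hG' R' hR' hRc' => ih Y (small Y hY hy) hYne G' hG' R' hR' hRc') R hRX hR

theorem minor_of_inj {W : Type} {H : SimpleGraph W} {G : SimpleGraph V} (f : W → V)
    (hf : Function.Injective f) (h : ∀ a b, H.Adj a b → G.Adj (f a) (f b)) : IsMinor H G := by
  refine ⟨fun a => {f a}, fun a => conn_single G _, fun a b hab => ?_,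
    fun a b hab => ⟨f a, rfl, f b, rfl, h a b hab⟩⟩
  rw [Set.disjoint_left]
  rintro x hx hx'
  exact hab (hf (hx.symm.trans hx'))

theorem sub_minor {X : Set V} {G : SimpleGraph V} {Z K : Set X} {Z' : Set V}
    (hZ : ∀ v, v ∈ Z' → ∃ h : v ∈ X, (⟨v, h⟩ : X) ∈ Z) :
    IsMinor ((G ⊔ cl (Subtype.val '' K)).induce Z') (((G.induce X) ⊔ cl K).induce Z) := by
  choose h1 h2 using hZ
  refine minor_of_inj (fun a : Z' => (⟨⟨a.1, h1 a.1 a.2⟩, h2 a.1 a.2⟩ : Z)) ?_ ?_
  · intro a b hab
    have : a.1 = b.1 := congrArg (fun z : Z => z.1.1) hab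
    exact Subtype.ext this
  · rintro ⟨a, ha⟩ ⟨b, hb⟩ hab
    rcases hab with hab | ⟨hne, haK, hbK⟩
    · exact Or.inl hab
    · refine Or.inr ⟨fun h => hne (congrArg Subtype.val h), ?_, ?_⟩
      · obtain ⟨x, hx, hxa⟩ := haK
        have : (⟨a, h1 a ha⟩ : X) = x := Subtype.ext hxa.symm
        show (⟨a, h1 a ha⟩ : X) ∈ K
        rw [this]; exact hx
      · obtain ⟨x, hx, hxa⟩ := hbK
        have : (⟨b, h1 b hb⟩ : X) = x := Subtype.ext hxa.symm
        show (⟨b, h1 b hb⟩ : X) ∈ K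
        rw [this]; exact hx

/-- the recursion for the class without the minor `M` -/
theorem goodM [Finite V] {U : Type} {M : SimpleGraph U} {w : ℕ} (hC : CorHyp M w) (hX2 : X2Stmt) :
    ∀ (n : ℕ) (X : Set V), X.ncard ≤ n → X.Nonempty →
    ∀ G : SimpleGraph V, ¬ IsMinor M (G.induce X) → ∀ R ⊆ X, Clq G R →
      Good (AtomM w) G X R := by
  refine goodG M (AtomM w) ?_
  intro X hXne G hG hconn3 hpre ih R hRX hR
  by_cases hQ : Q4 (G.induce X)
  · exact Good.one hRX ⟨hXne.to_subtype, hpre, hC X (G.induce X) hconn3 hQ hG⟩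
  unfold Q4 at hQ
  push Not at hQ
  obtain ⟨D, hD3, hD1, hE1⟩ := hQ
  set K := nbr (G.induce X) D with hK
  set E : Set X := (D ∪ K)ᶜ with hE
  have hDK : ∀ v ∈ D, v ∉ K := fun v hv hv' => hv'.1 hv
  have hDcl : ∀ u ∈ D, ∀ v, (G.induce X).Adj u v → v ∈ D ∨ v ∈ K := by
    intro u hu v huv
    by_cases h : v ∈ D
    · exact Or.inl h
    · exact Or.inr ⟨h, u, hu, huv⟩
  have hEK : ∀ v ∈ E, v ∉ K := fun v hv hv' => hv (Or.inr hv')
  have hEcl : ∀ u ∈ E, ∀ v, (G.induce X).Adj u v → v ∈ E ∨ v ∈ K := by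
    intro u hu v huv
    by_cases h : v ∈ K
    · exact Or.inr h
    · left
      rintro (h' | h')
      · rcases hDcl v h' u huv.symm with h'' | h''
        · exact hu (Or.inl h'')
        · exact hu (Or.inr h'')
      · exact h h'
  obtain ⟨x0, hx0⟩ : D.Nonempty := by
    rw [Set.nonempty_iff_ne_empty]
    rintro rfl
    simp at hD1
  obtain ⟨y0, hy0⟩ : E.Nonempty := by
    rw [Set.nonempty_iff_ne_empty]
    intro h
    rw [h] at hE1
    simp at hE1
  have m1 := hX2 X (G.induce X) D K hconn3 hD3 hDK hDcl (by omega)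
    ⟨y0, fun h => hy0 (Or.inl h), fun h => hy0 (Or.inr h)⟩
  have m2 := hX2 X (G.induce X) E K hconn3 hD3 hEK hEcl (by omega)
    ⟨x0, fun h => h (Or.inl hx0), fun h => hDK x0 hx0 h⟩
  have inj : ∀ (Z : Set X) (x : X), x.1 ∈ (Subtype.val '' Z : Set V) → x ∈ Z := by
    rintro Z x ⟨z, hz, hzx⟩
    have : z = x := Subtype.ext hzx
    exact this ▸ hz
  refine Good.split (C := Subtype.val '' D) (K := Subtype.val '' K) ?_ ?_ ?_ ?_ ?_ hRX hR ?_ ?_
  · rintro _ ⟨x, _, rfl⟩; exact x.2
  · rintro _ ⟨x, _, rfl⟩; exact x.2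
  · rintro _ ⟨x, hx, rfl⟩ h
    exact hDK x hx (inj K x h)
  · exact (Set.ncard_image_le (Set.toFinite K)).trans hD3
  · rintro _ ⟨x, hx, rfl⟩ v hv hxv
    rcases hDcl x hx ⟨v, hv⟩ hxv with h | h
    · exact Or.inl ⟨_, h, rfl⟩
    · exact Or.inr ⟨_, h, rfl⟩
  · intro R' hR' hRc'
    refine ih (Subtype.val '' D ∪ Subtype.val '' K) ?_ ⟨y0.1, y0.2, ?_⟩
      ⟨x0.1, Or.inl ⟨x0, hx0, rfl⟩⟩ _ ?_ R' hR' hRc'
    · rintro _ (⟨x, _, rfl⟩ | ⟨x, _, rfl⟩) <;> exact x.2
    · rintro (h | h)
      · exact hy0 (Or.inl (inj D y0 h))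
      · exact hy0 (Or.inr (inj K y0 h))
    · intro h
      refine hG (minor_trans h (minor_trans (sub_minor (Z := Eᶜ) (K := K) ?_) m2))
      rintro _ (⟨x, hx, rfl⟩ | ⟨x, hx, rfl⟩)
      · exact ⟨x.2, fun h => h (Or.inl hx)⟩
      · exact ⟨x.2, fun h => h (Or.inr hx)⟩
  · intro R' hR' hRc'
    refine ih (X \ Subtype.val '' D) Set.diff_subset ⟨x0.1, x0.2, fun h => h.2 ⟨x0, hx0, rfl⟩⟩
      ⟨y0.1, y0.2, fun h => hy0 (Or.inl (inj D y0 h))⟩ _ ?_ R' hR' hRc'
    intro h
    refine hG (minor_trans h (minor_trans (sub_minor (Z := Dᶜ) (K := K) ?_) m1))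
    rintro v ⟨hv, hvD⟩
    exact ⟨hv, fun h => hvD ⟨_, h, rfl⟩⟩

/-- **[X3]** -/
theorem sumM {U : Type} {M : SimpleGraph U} {w : ℕ} (hC : CorHyp M w) (hX2 : X2Stmt) (V : Type)
    [Finite V] [Nonempty V] (G : SimpleGraph V) (hG : ¬ IsMinor M G) :
    ∃ (H : SimpleGraph V) (n : ℕ) (B : ℕ → Set V), G ≤ H ∧ 0 < n ∧ Glued 3 H n B ∧
      ∀ t < n, (B t).Nonempty ∧
        (∀ K : Set (B t), K.ncard ≤ 3 → Clq (H.induce (B t)) K →
          ((H.induce (B t)).induce Kᶜ).Preconnected) ∧
        ((¬ IsMinor K5 (H.induce (B t)) ∧ ¬ IsMinor K33 (H.induce (B t))) ∨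
          TreewidthLE (H.induce (B t)) w) := by
  have hG' : ¬ IsMinor M (G.induce (Set.univ : Set V)) := by
    intro h
    exact hG (minor_trans h (minor_of_inj (fun z => z.1) Subtype.val_injective
      fun a b hab => hab))
  obtain ⟨H, hH, m, B, hB⟩ := goodM hC hX2 (Set.univ : Set V).ncard Set.univ le_rfl
    Set.univ_nonempty G hG' ∅ (Set.empty_subset _) (fun u hu => hu.elim)
  refine ⟨H, m, B, fun u v huv => hH u trivial v trivial huv, hB.pos,
    ⟨fun v => hB.cover v trivial, hB.card, hB.clique, hB.sep⟩, fun t ht => ?_⟩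
  obtain ⟨hne, hpre, h⟩ := hB.atom t ht
  exact ⟨Set.nonempty_coe_sort.1 hne, hpre, h⟩

/-- the planar pieces with their root, and the pieces of bounded treewidth -/
def PT (w : ℕ) (V : Type) (G : SimpleGraph V) (R : Set V) : Prop :=
  G.Connected ∧ (¬ IsMinor K33 (capG G R) ∨ TreewidthLE G w)

/-- **[X3] + FACE** -/
theorem classM (hF : FaceStmt) {U : Type} {M : SimpleGraph U} {w : ℕ} (hC : CorHyp M w)
    (hX2 : X2Stmt) (V : Type) [Finite V] [Nonempty V] (G : SimpleGraph V) (hG : ¬ IsMinor M G) :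
    ∃ H : SimpleGraph V, G ≤ H ∧ CliqueSum 3 (PT w) H := by
  obtain ⟨H, n, B, hGH, _, hB, hat⟩ := sumM hC hX2 V G hG
  refine ⟨H, hGH, n, B, hB, fun t ht => ?_⟩
  obtain ⟨hne, hpre, h⟩ := hat t ht
  have hcl : Clq (H.induce (B t)) {x : B t | (x : V) ∈ Adh B t} := by
    intro u hu v hv huv
    exact hB.clique t ht u.1 hu v.1 hv (fun h => huv (Subtype.ext h))
  have hcard : ({x : B t | (x : V) ∈ Adh B t} : Set (B t)).ncard ≤ 3 := by
    have h1 : ({x : B t | (x : V) ∈ Adh B t} : Set (B t)).ncard =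
        (Subtype.val '' {x : B t | (x : V) ∈ Adh B t}).ncard :=
      (Set.ncard_image_of_injective _ Subtype.val_injective).symm
    rw [h1]
    refine (Set.ncard_le_ncard ?_ (Set.toFinite _)).trans (hB.card t ht)
    rintro _ ⟨x, hx, rfl⟩
    exact hx
  refine ⟨?_, ?_⟩
  · have h0 := hpre ∅ (by simp) (fun u hu => hu.elim)
    haveI := hne.to_subtype
    refine ⟨fun a b => ?_⟩
    let f : (H.induce (B t)).induce (∅ : Set (B t))ᶜ →g H.induce (B t) :=
      ⟨fun z => z.1, fun h => h⟩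
    exact (h0 ⟨a, fun h => h⟩ ⟨b, fun h => h⟩).map f
  · rcases h with ⟨h5, h33⟩ | h
    · exact Or.inl (hF _ _ _ hcard hcl (hpre _ hcard hcl) h5 h33)
    · exact Or.inr h

end Vale.Agent.P235.K5.H437.XC
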