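import Vale.Agent.P235.XC.Defs
import Vale.Agent.P235.XC.H437.Rec

/-!
P235, line XC, row [X3] in the letters of XC/Defs (helper437): `structX`.
-/

set_option autoImplicit false
set_option linter.all false

namespace Vale.Agent.P235.K5.H437.XC

open SimpleGraph Vale.Agent.P235.H134 Vale.Agent.P235.H56
open Vale.Agent.P235.XC (TorsoStmt PieceStmt StructXStmt TX)

variable {V : Type}

theorem nbr_eq (G : SimpleGraph V) (D : Set V) : H830.nbr G D = nbr G D := by
  ext v
  simp only [H830.nbr, nbr, Set.mem_setOf_eq]

theorem clqs_eq (K : Set V) : Vale.Agent.P235.XC.clqs K = cl K := by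
  ext u v
  exact Iff.rfl

theorem x2_of (hT : TorsoStmt) : X2Stmt := by
  intro V _ G D K h3 hK3 hDK hcl h2 ⟨y, hyD, hyK⟩
  have hsub : nbr G D ⊆ K := by
    rintro v ⟨hv, u, hu, huv⟩
    exact (hcl u hu v huv).resolve_left hv
  have hDne : D.Nonempty := by
    rw [Set.nonempty_iff_ne_empty]
    rintro rfl
    simp at h2
  have hle : (nbr G D).ncard ≤ K.ncard := Set.ncard_le_ncard hsub (Set.toFinite K)
  have hge : 3 ≤ (nbr G D).ncard := by
    by_contra hlt
    obtain ⟨s, t, hst⟩ : ∃ s t : V, s ∉ D ∧ t ∉ D ∧ y ≠ s ∧ y ≠ t ∧ ∀ v ∈ nbr G D,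
        v = s ∨ v = t := by
      rcases (by omega : (nbr G D).ncard = 0 ∨ (nbr G D).ncard = 1 ∨ (nbr G D).ncard = 2) with
        h | h | h
      · have h0 : nbr G D = ∅ := (Set.ncard_eq_zero (Set.toFinite _)).1 h
        -- the closed set `D` has no outer neighbour: Conn3 with any two vertices outside
        exfalso
        have : y ∈ D ∨ y = y ∨ y = y := Or.inr (Or.inl rfl)
        obtain ⟨x0, hx0⟩ := hDne
        obtain ⟨x1, hx1, hne⟩ : ∃ x1 ∈ D, x1 ≠ x0 := by
          by_contra hno
          push Not at hno
          have : D ⊆ {x0} := fun v hv => hno v hv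
          have := Set.ncard_le_ncard this (Set.toFinite _)
          rw [Set.ncard_singleton] at this
          omega
        -- use the complement
        have hc := h3 x0 x0 (({y} : Set V) ∪ {v | v ∉ D}) ⟨y, Or.inl rfl⟩ (by
            rintro (h | h)
            · exact hyD (by rw [← (show x0 = y from h)]; exact hx0)
            · exact h hx0) (by
            rintro (h | h)
            · exact hyD (by rw [← (show x0 = y from h)]; exact hx0)
            · exact h hx0) (by
            intro u hu v huv
            left
            right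
            intro hv
            have huD : u ∉ D := by
              rcases hu with h | h
              · rw [show u = y from h]; exact hyD
              · exact h
            have : u ∈ nbr G D := ⟨huD, v, hv, huv.symm⟩
            rw [h0] at this
            exact this) x1
        rcases hc with (h | h) | h | h
        · exact hyD (by rw [← (show x1 = y from h)]; exact hx1)
        · exact h hx1
        · exact hne h
        · exact hne h
      · obtain ⟨s, hs⟩ := Set.ncard_eq_one.1 h
        have hs' : s ∈ nbr G D := by rw [hs]; rfl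
        refine ⟨s, s, hs'.1, hs'.1, ?_, ?_, ?_⟩
        · rintro rfl; exact hyK (hsub hs')
        · rintro rfl; exact hyK (hsub hs')
        · intro v hv
          rw [hs] at hv
          exact Or.inl hv
      · obtain ⟨s, t, _, hs⟩ := Set.ncard_eq_two.1 h
        have hs' : s ∈ nbr G D := by rw [hs]; exact Or.inl rfl
        have ht' : t ∈ nbr G D := by rw [hs]; exact Or.inr rfl
        refine ⟨s, t, hs'.1, ht'.1, ?_, ?_, ?_⟩
        · rintro rfl; exact hyK (hsub hs')
        · rintro rfl; exact hyK (hsub ht')
        · intro v hv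
          rw [hs] at hv
          exact hv
    obtain ⟨hs, ht, hys, hyt, hall⟩ := hst
    rcases h3 s t D hDne hs ht (fun u hu v huv => by
      by_cases hv : v ∈ D
      · exact Or.inl hv
      · exact Or.inr (hall v ⟨hv, u, hu, huv⟩)) y with h | h | h
    · exact hyD h
    · exact hys h
    · exact hyt h
  have heq : nbr G D = K := Set.eq_of_subset_of_ncard_le hsub (by omega) (Set.toFinite K)
  have := hT V G D h3 (by rw [nbr_eq]; omega) h2 ⟨y, by
    rw [nbr_eq, heq]
    rintro (h | h)
    · exact hyD h
    · exact hyK h⟩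
  rw [nbr_eq, heq, clqs_eq] at this
  exact this

/-- **[X3]** -/
theorem structX (hP : PieceStmt) (hT : TorsoStmt) : StructXStmt := by
  intro r hr
  obtain ⟨w, hw⟩ := hP r hr
  refine ⟨w, fun V _ G hG => ?_⟩
  by_cases hV : Nonempty V
  · have hC : CorHyp (TX r) w := by
      intro V _ G h3 hQ hno
      have hQ' : Vale.Agent.P235.XC.Q4 G := by
        intro D hD
        rw [nbr_eq] at hD ⊢
        exact hQ D hD
      rcases hw V G h3 hQ' hno with ⟨h1, h2⟩ | h
      · exact Or.inl ⟨h2, h1⟩
      · exact Or.inr h
    obtain ⟨H, n, B, hGH, _, hB, hat⟩ := sumM hC (x2_of hT) V G hG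
    refine ⟨H, n, B, hGH, hB, fun t ht => ?_⟩
    rcases (hat t ht).2.2 with ⟨h5, h33⟩ | h
    · exact Or.inl ⟨h33, h5⟩
    · exact Or.inr h
  · exact ⟨G, 0, fun _ => ∅, le_rfl, ⟨fun v => (hV ⟨v⟩).elim, fun t ht => by omega,
      fun t ht => by omega, fun t ht => by omega⟩, fun t ht => by omega⟩

end Vale.Agent.P235.K5.H437.XC
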